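import Crest.Agent.X212.Sw87.MoS

/-!
# Row 212, GEO engine (helper31): the double wall and the reflection paths
-/

set_option autoImplicit false
set_option linter.unusedSectionVars false
noncomputable section
open scoped Manifold ContDiff Topology InnerProductSpace
open MeasureTheory Set Function Filter

namespace Crest.Agent.X212.Qd31
open An Cyf70 Sw Flo2 Geo28 Met55 Pen22 Sw87.Mo
open Bor5.T (O3 Q3 Pb Cur)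
open Dr59 (Cs pm mf HZ)

variable {mk : Mk κ0 L0 ν0} {X X₁ X₂ : M4} {τ : MT κ0 X} {τ₁ : MT κ0 X₁} {τ₂ : MT κ0 X₂}
  {k k' k₁ k₂ : ℕ}

theorem fcm_sa (H : Lf) {β : MB τ k} {β' : MB τ k'} {c' : MC μ0 β'} {c : MC μ0 β} (hM : c'.toMM = c.toMM)
    {a s ι} (hι : Injective ι) (hw : ∀ b, β'.wl b = β.wl (ι b)) (h : ∀ t, t a = s → Sa c' c (t ∘ ι) t) :
    FcM c c' a s ι (.refl _) :=
  ⟨0, fc_sa hM (D := {t ∈ dom β.wl | t a = s}) hι hw (fun t ht => h t ht.2) fun t => (H.pz.ok c t).1.bg⟩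

/-- the facet `t a = 0` of a family over two coordinates -/
theorem res1 (H : Lf) (β : MB τ 2) {a b : Fin 2} (ne : ∀ c ≠ b, c = a) : ∃ β' : MB τ 1,
    (∀ c, β'.wl c = β.wl b) ∧ (∀ t, β'.e t = β.e (Pi.single b (t 0))) ∧ ∀ c : MC μ0 β, ∃ c' : MC μ0 β',
      c'.toMM = c.toMM ∧ (∀ d, c.Cl d → c'.Cl d) ∧ (∀ t, Sa c' c t (Pi.single b (t 0))) ∧
        FcM c c' a 0 ![b] (.refl _) := by
  obtain ⟨β', w, e, h⟩ := res H.res β (π := fun c => if c = b then .inl 0 else .inr 0)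
    (w := fun _ : Fin 1 => β.wl b) ⟨fun c c' e => by split_ifs at e with k; rw [k],
      fun c' _ => ⟨b, (if_pos rfl).trans (congrArg _ (Subsingleton.elim _ _))⟩,
      fun c x e => by split_ifs at e; cases e; simp⟩
  have z : ∀ t : Tk 1, sb (fun c => if c = b then .inl 0 else .inr 0) t = Pi.single b (t 0) :=
    fun t => funext fun c => by by_cases k : c = b <;> simp [sb, k]
  simp only [z] at e h
  refine ⟨β', congrFun w, e, fun c => ?_⟩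
  obtain ⟨c', m, d, s⟩ := h c
  refine ⟨c', m, d, s, fcm_sa H m (fun _ _ _ => Subsingleton.elim _ _)
    (fun x => by rw [w, Subsingleton.elim x 0]; rfl) fun t ht => ?_⟩
  convert s (t ∘ ![b])
  funext x
  by_cases k : x = b
  · simp [k]
  · rw [Pi.single_eq_of_ne k, ne x k, ht]

theorem gf_res {γ : TG τ τ₁ τ₂} {β : MB τ 2} {β' : MB τ 1} {β₁ : MB τ₁ k₁} {β₂ : MB τ₂ k₂} {b ι₁ ι₂}
    {δ₁ : MB τ₁ 0} {δ₂ : MB τ₂ 0} (B : γ.GB β β₁ β₂ b ι₁ ι₂) (F : ∀ t, γ.GF β β₁ β₂ b ι₁ ι₂ t)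
    (w : ∀ c, β'.wl c = β.wl b) (e : ∀ t, β'.e t = β.e (Pi.single b (t 0))) (e₁ : δ₁.e 0 = β₁.e 0)
    (e₂ : δ₂.e 0 = β₂.e 0) : γ.GB β' δ₁ δ₂ 0 e0 e0 ∧ ∀ u, γ.GF β' δ₁ δ₂ 0 e0 e0 u := by
  refine ⟨⟨bij0, (w 0).trans B.wl, fun c => c.elim0, fun c => c.elim0⟩, fun u => ?_⟩
  have z₁ : (Pi.single b (u 0) : Tk 2) ∘ ι₁ = 0 := funext fun c =>
    Pi.single_eq_of_ne (fun k => nomatch B.bij.1 (a₁ := .inl (.inl c)) (a₂ := .inr ()) k) _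
  have z₂ : (Pi.single b (u 0) : Tk 2) ∘ ι₂ = 0 := funext fun c =>
    Pi.single_eq_of_ne (fun k => nomatch B.bij.1 (a₁ := .inl (.inr c)) (a₂ := .inr ()) k) _
  obtain ⟨l, r, n⟩ := F (Pi.single b (u 0))
  rw [z₁, ← e₁, ← e] at l
  rw [z₂, ← e₂, ← e] at r
  rw [← e, Pi.single_eq_same] at n
  exact ⟨t0 (u ∘ e0) ▸ l, t0 (u ∘ e0) ▸ r, n⟩

theorem map_rel {N N' α : Type*} {r : N → N' → Prop} {p q} (h : Option.Rel r p q) {f : N → α} {f' : N' → α}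
    (e : ∀ i j, r i j → f i = f' j) : q.map f' = p.map f := by
  cases h with
  | none => rfl
  | some k => exact congrArg some (e _ _ k).symm

theorem gm_pk {γ : TG τ τ₁ τ₂} {M M₁ M₂} (h : γ.GM M M₁ M₂) (p₁ : Pk mk M₁) (p₂ : Pk mk M₂) :
    Pk mk M ∧ (M.ec γ.i).kd = .qhs := by
  have q : ∀ {T T' : TY}, T = T' → T.1.kd = .qhs → T'.1.kd = .qhs := fun e k => e ▸ k
  have q0 := q h.t₁ (p₁.q _ (γ.s_1 ▸ nofun))
  refine ⟨⟨h.all (p := fun T => T.1.OK mk) p₁.ok p₂.ok, fun i e => ?_⟩, q0⟩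
  obtain rfl | ⟨j, r⟩ | ⟨j, r⟩ := γ.sur i
  exacts [q0, q (h.r₁ _ _ r) (p₁.q j ((γ.c₁ _ _ r).2.2.s ▸ e)),
    q (h.r₂ _ _ r) (p₂.q j ((γ.c₂ _ _ r).2.2.s ▸ e))]

theorem pk_u {M : MM μ0 τ} (p : Pk mk M) {i} (h : (τ.nb i).s ≠ none) : (M.ec i).u = 1 :=
  ((p.ok i).qhs (p.q i h)).2.1

theorem mt_fix {J r} {f : X.M → X.M} : ∀ {a : Option O3} (k : Ec a X J), (∀ p, k.tm p ∈ J → f p = p) →
    Ec.Mt r f k k
  | none, _, _ => trivial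
  | some _, k, h => fun y t ht _ =>
    h _ ((congrArg (· ∈ J) (k.tmk (y, t) (k.src.ge ⟨trivial, ht⟩))).mpr ht)

/-- a reflection as an isomorphism -/
def rfIso {a b} {T : Pm a b none} (ρ : Rf T) (n : T.nb = 0) : T.Iso T :=
  ⟨ρ.toDif, mt_fix _ fun p h => ρ.id p fun m => m.1.not_gt h,
    mt_fix _ fun p h => ρ.id p fun m => m.2.1.not_gt h, trivial, rfl, fun j => (j.cast n).elim0⟩

variable {𝓔 : Ends mk} {a c : Option Q3} {B C : Q3} {𝒯 : Set TY}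

/-- **roots and properness** -/
theorem ex_rf (g : Gn mk) {T : Pm (vo a) (vo c) none} {τ : MT κ0 T.X}
    (o : On T τ (𝓔.go a) (𝓔.go c) ()) (n : τ.nc = 0) {β : MB τ k} (k2 : k ≤ 2) {I} (ts : TS mk 𝒯)
    (F : FM 𝒯 β I) (S : I → Set T.Fm) (pk : ∀ i, Pk mk (F.c i).toMM)
    (w : ∀ c, ∀ j ∈ β.wl c, (τ.nb j).e.H2 ∧ ∀ i, ((F.c i).ec j).kd = .qhs) (fin : (⋃ i, S i).Finite)
    (hl : ∀ i, Hl (F.c i) (S i))
    (ps : a = none → ∀ i, ∀ f ∈ convexHull ℝ (S i), T.X.Ps (F.d i) ((2 : ℝ) • f))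
    (inj : Injective F.d) : ∃ K ro, RF.Prp (mk := mk) ⟨F, K, ro⟩ id 0 := by
  have p3 : τ.p3 = none := Option.map_eq_none_iff.1 o.p3
  obtain ⟨⟨_, K, ro⟩, rfl⟩ := g.fm F S ts k2 n (fun e => (e p3).elim)
    (fun i j e => (pk i).q j (τ.of_port (.inr (.inl e)))) (.inl fun i j e => (pk i).q j (τ.of_port (.inl e)))
    (fun i c j e k => (k ((w c j e).2 i)).elim) (fun i j e => nomatch p3.symm.trans e) fin hl
    fun e i => ⟨ps (Ends.go_none ((congrArg _ e).symm.trans o.pin)) i, fun j x k =>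
      nomatch k.symm.trans (x.elim ((pk i).q j) fun ⟨c, e⟩ => (w c j e).2 i)⟩
  exact ⟨K, ro, g.prp T _ o.toOnP (fun c j e => (w c j e).1) inj⟩

/-- the types at a neck agree -/
theorem ty_nk {T₁ : Pm (vo a) (some B.toO3) none} {T₂ : Pm (some B.toO3) (vo c) none}
    {T : Pm (vo a) (vo c) none} {g : Cm T₁ T₂ T} {τ₁ τ₂ τ} (t : CT (𝓔.go a) (𝓔.q B).g (𝓔.go c) g τ₁ τ₂ τ)
    {β₁ : MB τ₁ 0} {β₂ : MB τ₂ 0} {I₁ I₂} {F₁ : PF 𝒯 (𝓔.en a) (𝓔.en (some B)) none β₁ I₁}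
    {F₂ : PF 𝒯 (𝓔.en (some B)) (𝓔.en c) none β₂ I₂} (l₁ : F₁.Lb (b := some B) T₁)
    (l₂ : F₂.Lb (a := some B) T₂) {d i₁ i₂} (l : g.Rl d (F₁.d i₁)) (r : g.Rr d (F₂.d i₂)) :
    (F₁.c i₁).ty t.γ.j₁ = (F₂.c i₂).ty t.γ.j₂ := by
  obtain ⟨s, ks⟩ := ex_cl (s := true) T₁.ko (F₁.d i₁)
  have es : F₁.t i₁ = F₂.s i₂ := ((l₁ i₁).2 s ks).uq ((l₂ i₂).1 s ((cl_lr g.toGl3 l r).1 ks))
  exact Option.some.inj (((congrArg _ t.γ.port.1).symm.trans (F₁.ht i₁)).trans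
    ((es ▸ F₂.hs i₂).symm.trans (congrArg _ ((τ₂.inn _).1 t.γ.s_2))))

variable {G : CG} (P : PG G a B C)

theorem fin_η (H : Lf) : (range fun θ : PM P => (1 / 2 : ℝ) • P.η θ.k).Finite := by
  let f := fun θ : PM P => (P.η1 θ.d1, P.η2 θ.d2, P.η3 θ.d3)
  have hf : (range f).Finite := (P.fin.1.prod (P.fin.2.1.prod P.fin.2.2.1)).subset <| by
    rintro _ ⟨θ, rfl⟩
    exact ⟨⟨_, rfl⟩, ⟨_, rfl⟩, ⟨_, rfl⟩⟩
  have fac : (fun θ : PM P => (1 / 2 : ℝ) • P.η θ.k).FactorsThrough f := fun θ θ' e => by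
    simp only [f, Prod.mk.injEq] at e
    have a := P.e12 _ _ _ θ.l12 θ.r12
    have b := P.eC _ _ _ θ.lC θ.rC
    rw [e.1, e.2.1] at a
    rw [e.2.2, H.cgl.fm _ _ _ _ _ a (P.e12 _ _ _ θ'.l12 θ'.r12)] at b
    exact congrArg _ (H.cgl.fm _ _ _ _ _ b (P.eC _ _ _ θ'.lC θ'.rC))
  refine (hf.image (extend f (fun θ => (1 / 2 : ℝ) • P.η θ.k) 0)).subset ?_
  rintro _ ⟨θ, rfl⟩
  exact ⟨f θ, ⟨θ, rfl⟩, fac.extend_apply _ θ⟩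

theorem ts_p (g : Gn mk) : TS mk (𝓔.TP G a B C) := g.ts 𝓔 G _ <|
  ((finite_singleton B).union ((finite_singleton C).union a.toFinset.finite_toSet)).subset
    fun _ h => h.imp_right (Or.imp_right fun h => by simp [h])

/-- **P-GD** -/
theorem gdStmt : GdStmt mk := fun g 𝓔 G a B C P D Z Q => by
  have H := g.lf
  have n : Q.τ.nc = 0 := Q.tC.o.nc.trans P.gN.nT
  have E := fun b => ei_iso Q.tC.o Q.tC.o (rfIso (P.ρ b) P.gN.nT)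
  choose β hβ using fun b => bl H.res H.bl H.pb Q.βP Q.βP (P.ρ b).toDif (E b)
  have pk := Q.cP.pk (Ends.en_q a) (Ends.en_q a)
  have hd : ∀ θ, Q.cP.d θ = θ.k := fun θ => (Q.hd θ).1
  have pe : ∀ b θ, Pe (Q.cP.c (θ.rs b)).toMM (Q.cP.c θ).toMM := fun b θ u => by
    obtain ⟨s, ks⟩ := ex_cl (s := false) P.X.ki θ.k
    obtain ⟨t, kt⟩ := ex_cl (s := true) P.X.ko θ.k
    rcases u with _ | _ | _
    · exact (Q.cP.hu _).trans (Q.cP.hu θ).symm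
    · exact (Q.cP.hs _).trans ((((Q.lb (θ.rs b)).1 s (hd _ ▸ (rf_ki (P.ρ b) _ s).1 ks)).uq
        ((Q.lb θ).1 s (hd _ ▸ ks))) ▸ (Q.cP.hs θ).symm)
    · exact (Q.cP.ht _).trans ((((Q.lb (θ.rs b)).2 t (hd _ ▸ (rf_ko (P.ρ b) _ t).1 kt)).uq
        ((Q.lb θ).2 t (hd _ ▸ kt))) ▸ (Q.cP.ht θ).symm)
  choose c m I using fun b θ => (hβ b).im H.pz H.pb H.iso H.trp (E b) (Q.cP.c θ) (Q.cP.c (θ.rs b))
    (fun _ _ => (pe b θ).ty) (Q.cP.cl θ) (Q.cP.cl _) (by rw [hd, hd]; exact (P.ρ b).pb θ.k)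
    (fun i => lgE ((pk _).ok i)) fun i e => pk_u (pk _) (e ▸ nofun)
  have fo : ∀ θ, (Q.cP.c θ).fo 0 = (1 / 2 : ℝ) • P.η θ.k := fun θ => (Q.fo θ).1 0
  choose K ro prp using fun b => ex_rf g Q.tC.o n one_le_two (ts_p g) ⟨c b, Q.cP.d,
    fun θ => (I b θ).1.cl _ (Q.cP.cl θ), fun θ => (I b θ).1.mc (congrFun (Q.cP.mc θ) 0)
      (congrFun (Q.cP.mc _) 0) n, fun θ j => (I b θ).1.M ▸ Q.cP.ty θ j⟩
    (fun θ => {(Q.cP.c θ).fo 0, pm _ _ (P.ρ b).φ ((Q.cP.c (θ.rs b)).fo 0)}) (fun θ => (I b θ).1.M ▸ pk θ)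
    (fun x j e => nomatch ((hβ b).wl x).symm.trans e)
    (((fin_η P H).union ((fin_η P H).image (pm _ _ (P.ρ b).φ))).subset (iUnion_subset fun θ => by
      rintro _ (rfl | rfl)
      exacts [.inl ⟨θ, (fo θ).symm⟩, .inr ⟨_, ⟨_, (fo _).symm⟩, rfl⟩]))
    (fun θ => ⟨toFinite _, by
      rintro _ (rfl | rfl)
      exacts [(Q.cP.c θ).cs 0, (H.pb.f (Q.cP.c _) (P.ρ b).toDif _ (Q.βP.fr 0)).1 0],
      fun t _ => (I b θ).1.hull t⟩)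
    (fun e θ f hf => by
      rw [convexHull_pair, segment_eq_image] at hf
      obtain ⟨s, k, rfl⟩ := hf
      convert P.p e b θ.k θ.hk (1 - s) s 0 (sub_nonneg.2 k.2) k.1 le_rfl (by ring) using 1
      · exact hd θ
      rw [fo, fo, Dr59.pm_smul]
      show _ = _ + s • pm _ _ _ (P.η (θ.rs b).k) + _
      module)
    fun θ θ' e => PM.ext ((hd θ).symm.trans (e.trans (hd θ')))
  exact ⟨⟨β, hβ, fun b => ⟨⟨_, K b, ro b⟩, m b, fun θ => (I b θ).1, rfl⟩, prp⟩⟩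

/-- **P-QD** -/
theorem qdStmt : QdStmt mk := fun g 𝓔 G a B C P D Z => by
  have H := g.lf
  obtain ⟨τ, tC, tB, A⟩ := g.as P.toPG0 Z.D0.t Z.D1.t (Ends.go_std a) Z.F1.fe Z.F2.fe Z.F3.fe
  obtain ⟨ΛC⟩ := H.lr tC.γ
  obtain ⟨ΛB⟩ := H.lr tB.γ
  have n : τ.nc = 0 := tC.o.nc.trans P.gN.nT
  obtain ⟨βQ, bC, fC⟩ := H.glu.b tC.γ Z.D0.βH Z.F3.β (1 : Fin 2) ![0] e0 (by decide) (fun c j e =>
    ⟨tB.i, Option.some.inj (Z.D0.gb.wl.symm.trans (Subsingleton.elim c 0 ▸ e)) ▸ A.r₁⟩) fun c => c.elim0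
  obtain ⟨bB, fB⟩ := A.b Z.D0.gb Z.D0.gf Z.D1.gb Z.D1.gf bC fC
  obtain ⟨βA, wA, eA, rA⟩ := res1 H βQ (a := 1) (b := 0) (by decide)
  obtain ⟨βB, wB, eB, rB⟩ := res1 H βQ (a := 0) (b := 1) (by decide)
  obtain ⟨βP, eP, rP⟩ := res0 H βA
  have gA := gf_res bB fB wA eA rfl Z.D1.ep
  have gB := gf_res bC fC wB eB Z.D0.ep rfl
  have lC : ∀ θ : PM P, P.gC.Rl θ.k (Z.D0.p.d θ.j0) := fun θ => (Z.D0.hd θ.j0).1 ▸ θ.lC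
  have rC : ∀ θ : PM P, P.gC.Rr θ.k (Z.F3.F.d θ.d3) := fun θ => Z.F3.hd θ.d3 ▸ θ.rC
  choose cQ mQ kQ using fun θ : PM P => H.glu.c tC.γ 1 ![0] e0 (Z.D0.H.c θ.j0) (Z.F3.F.c θ.d3) bC fC
    (Z.D0.pM θ.j0 ▸ ty_nk tC Z.D0.lb Z.F3.lb (lC θ) (rC θ))
  choose cA mA dA sA q1 using fun θ => rA (cQ θ)
  choose cB mB dB sB q0 using fun θ => rB (cQ θ)
  choose cP mP dP sP a0 using fun θ => rP (cA θ)
  have mQ' := fun θ : PM P => A.m (Z.D0.gm θ.j0) (Z.D1.gm θ.j1) (mQ θ)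
  have gmA : ∀ θ, tB.γ.GM (cA θ).toMM (Z.F1.F.c θ.d1).toMM (Z.D1.p.c θ.j1).toMM := fun θ =>
    mA θ ▸ Z.D1.pM θ.j1 ▸ mQ' θ
  have gmB : ∀ θ, tC.γ.GM (cB θ).toMM (Z.D0.p.c θ.j0).toMM (Z.F3.F.c θ.d3).toMM := fun θ =>
    mB θ ▸ Z.D0.pM θ.j0 ▸ mQ θ
  have p1 := Z.F1.F.pk (Ends.en_q _) (Ends.en_q _)
  have p3 := Z.F3.F.pk (Ends.en_q _) (Ends.en_q _)
  have p12 := Z.D0.p.pk (Ends.en_q _) (Ends.en_q _)
  have p23 := Z.D1.p.pk (Ends.en_q _) (Ends.en_q _)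
  have kC := fun θ => gm_pk (mQ θ) (Z.D0.pM _ ▸ p12 _) (p3 _)
  have kB := fun θ => (gm_pk (mQ' θ) (p1 _) (Z.D1.pM _ ▸ p23 _)).2
  have hC := fun θ : PM P => fm_smul (P.eC _ _ _ θ.lC θ.rC) (1 / 2)
  have hB := fun θ : PM P => fm_smul (A.f (P.e12 _ _ _ θ.l12 θ.r12) (P.e23 _ _ _ θ.l23 θ.r23)
    (P.eC _ _ _ θ.lC θ.rC)) (1 / 2)
  have fQ : ∀ θ t, (cQ θ).fo t = (1 / 2 : ℝ) • P.η θ.k := fun θ t => H.cgl.fm _ _ _ _ _ (kQ θ t).fo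
    (by rw [(Z.D0.fo _).2, Z.F3.fo]; exact hC θ)
  have zQ : ∀ θ, (cQ θ).mc = 0 := fun θ => TG.GC.mc0 (kQ θ) (Z.D0.H.mc _) (Z.F3.F.mc _)
  have fA := fun θ t => (sA θ t).fo.trans (fQ θ _)
  have fB' := fun θ t => (sB θ t).fo.trans (fQ θ _)
  have fP : ∀ θ t, (cP θ).fo t = _ := fun θ t => (congrArg _ (t0 t)).trans ((sP θ).fo.trans (fA θ 0))
  have zA : ∀ θ, (cA θ).mc = 0 := fun θ => funext fun t => (sA θ t).mc.trans (congrFun (zQ θ) _)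
  have zB : ∀ θ, (cB θ).mc = 0 := fun θ => funext fun t => (sB θ t).mc.trans (congrFun (zQ θ) _)
  have zP : ∀ θ, (cP θ).mc = 0 := fun θ => funext fun t =>
    (congrArg _ (t0 t)).trans ((sP θ).mc.trans (congrFun (zA θ) _))
  have sA0 : ∀ θ, Sa (cA θ) (cQ θ) 0 0 := fun θ => by simpa using sA θ 0
  have sB0 : ∀ θ, Sa (cB θ) (cQ θ) 0 0 := fun θ => by simpa using sB θ 0
  have dQ : ∀ θ, (cQ θ).Cl θ.k := fun θ => by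
    obtain ⟨-, k⟩ := (H.tw tC.γ (fun _ => cB θ) (Z.D0.p.c θ.j0) (fun _ => Z.F3.F.c θ.d3) θ.k _ _ (gB.2 0)
      (fun _ => gmB θ) (tw_one _ (pk_u (p3 _) (tC.γ.s_2 ▸ nofun))) (lgE ((p12 _).ok _)) (Z.D0.p.cl _)
      (Z.F3.F.cl _) (lC θ) (rC θ)).1
    rwa [MC.Cl, (sB0 θ).e, mB] at k
  have tQ : ∀ θ j, (cQ θ).ty j ∈ 𝓔.TP G a B C := fun θ =>
    (mQ θ).all (p := (· ∈ 𝓔.TP G a B C)) (Z.D0.H.ty _) (Z.F3.F.ty _)
  have R : ∀ {k} {β : MB τ k} (c : PM P → MC μ0 β) (m : ∀ θ, (c θ).toMM = (cQ θ).toMM)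
      (d : ∀ θ, (c θ).Cl θ.k) (z : ∀ θ, (c θ).mc = 0), k ≤ 2 → (∀ θ t, (c θ).fo t = (1 / 2 : ℝ) • P.η θ.k) →
      (∀ x, ∃ y, β.wl x = βQ.wl y) → ∃ K ro, RF.Prp (mk := mk)
        ⟨⟨c, (·.k), d, z, fun θ j => m θ ▸ tQ θ j⟩, K, ro⟩ id 0 := fun c m d z k2 f w =>
    ex_rf g tC.o n k2 (ts_p g) _ (fun θ => {(1 / 2 : ℝ) • P.η θ.k}) (fun θ => m θ ▸ (kC θ).1)
      (fun x j e => by
        obtain ⟨y, w⟩ := w x
        rw [w] at e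
        fin_cases y
        · cases bB.wl.symm.trans e
          exact ⟨tB.hi ▸ (𝓔.q B).h2, fun θ => m θ ▸ kB θ⟩
        · cases bC.wl.symm.trans e
          exact ⟨tC.hi ▸ (𝓔.q C).h2, fun θ => m θ ▸ (kC θ).2⟩)
      (iUnion_singleton_eq_range _ ▸ fin_η P H)
      (fun θ => ⟨toFinite _, fun _ e => e ▸ f θ 0 ▸ (c θ).cs 0, fun t _ => subset_convexHull _ _ (f θ t)⟩)
      (fun e θ x hx => by
        rw [convexHull_singleton] at hx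
        rw [hx, two_half]
        simpa using P.p e false θ.k θ.hk 1 0 0 zero_le_one le_rfl le_rfl (by ring))
      fun _ _ => PM.ext
  obtain ⟨KQ, roQ, pQ⟩ := R cQ (fun _ => rfl) dQ zQ le_rfl fQ fun x => ⟨x, rfl⟩
  obtain ⟨KA, roA, pA⟩ := R cA mA (fun θ => dA θ _ (dQ θ)) zA one_le_two fA fun x => ⟨_, wA x⟩
  obtain ⟨KB, roB, pB⟩ := R cB mB (fun θ => dB θ _ (dQ θ)) zB one_le_two fB' fun x => ⟨_, wB x⟩
  obtain ⟨KP, roP, -⟩ := R cP (fun θ => (mP θ).trans (mA θ)) (fun θ => dP θ _ (dA θ _ (dQ θ))) zP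
    zero_le_two fP fun x => x.elim0
  have mPB := fun θ => (mP θ).trans ((mA θ).trans (mB θ).symm)
  have sPB : ∀ θ, Sa (cP θ) (cB θ) 0 0 := fun θ =>
    have x := sP θ; have y := sA0 θ; have z := sB0 θ
    ⟨x.e.trans (y.e.trans z.e.symm), x.v.trans (y.v.trans z.v.symm), x.fo.trans (y.fo.trans z.fo.symm),
      x.mc.trans (y.mc.trans z.mc.symm), x.η.trans (y.η.trans z.η.symm)⟩
  refine ⟨⟨τ, tC, tB, ΛC, ΛB, βQ, βA, βB, βP, gA, gB, ⟨eP, eP.trans ?_⟩, ⟨_, KQ, roQ⟩, ⟨_, KA, roA⟩,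
    ⟨_, KB, roB⟩, ⟨⟨_, KP, roP⟩, fun θ => Z.D0.p.s θ.j0, fun θ => Z.F3.F.t θ.d3, fun _ => (),
      fun θ => (map_rel tC.γ.pin (mPB θ ▸ gmB θ).r₁).trans (Z.D0.p.hs _),
      fun θ => (map_rel tC.γ.port.2.1 (mPB θ ▸ gmB θ).r₂).trans (Z.F3.F.ht _),
      fun θ => congrArg _ tC.γ.p3.2⟩, fun _ => ⟨rfl, rfl, rfl⟩,
    fun θ => ⟨fun s k => (Z.D0.lb _).1 s ((ki_cl P.gC (lC θ) s).2 k), fun s k => (Z.F3.lb _).2 s
      ((cl_o P.gC.ko P.gC.r.open_source (fun p k => (mem_r P.gC.toGl3).2 ?_) (rC θ) s).2 k)⟩,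
    gmA, gmB, fun θ => ⟨fP θ, fA θ, fB' θ⟩, fun θ => ⟨0, a0 θ⟩,
    fun θ => TG.wlm H ΛB gA.1 (gmA θ) n (zA θ) (Z.F1.F.mc _) (Z.D1.p.mc _) (fun t _ => ⟨gA.2 t, ?_⟩)
      fun _ => mA θ ▸ kB θ,
    fun θ => fcm_sa H (mPB θ) (fun x => x.elim0) (fun x => x.elim0) fun t e => ?_,
    fun θ => TG.wlm H ΛC gB.1 (gmB θ) n (zB θ) (Z.D0.p.mc _) (Z.F3.F.mc _) (fun t _ => ⟨gB.2 t, ?_⟩)
      fun _ => mB θ ▸ (kC θ).2, q0,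
    fun θ => TG.wlm H ΛB bB (mQ' θ) n (zQ θ) (Z.F1.F.mc _) (Z.D1.H.mc _) (fun t _ => ⟨fB t, ?_⟩)
      fun _ => kB θ, q1,
    fun θ => TG.wlm H ΛC bC (mQ θ) n (zQ θ) (Z.D0.H.mc _) (Z.F3.F.mc _) (fun t _ => ⟨fC t, (kQ θ t).fo⟩)
      fun _ => (kC θ).2,
    fun v hv w hw => (A.s _ Z.D1.Λ _ _ v hv w hw).1, fun v hv w hw => (A.s _ _ _ _ v hv w hw).2.1,
    fun v hv w hw => (A.s Z.D0.Λ _ _ _ v hv w hw).2.2, pQ, pA, pB⟩⟩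
  · simp [eA, eB]
  · exact lt_of_lt_of_le (by norm_num) (not_lt.1 fun m => (P.X3.io p m).not_gt k)
  · rw [fA, Z.F1.fo, (Z.D1.fo _).1]; exact hB θ
  · obtain rfl : t = 0 := funext fun x => Subsingleton.elim x 0 ▸ e
    exact t0 ((0 : Tk 1) ∘ e0) ▸ sPB θ
  · rw [fB', Z.F3.fo, (Z.D0.fo _).1]; exact hC θ
  · rw [fQ, Z.F1.fo, (Z.D1.fo _).2]; exact hB θ

end Crest.Agent.X212.Qd31
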